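import Vale.Agent.P067.Cob.Complex

/-!
Chain-level tools for the band lemma: clearing a set of pairwise incompatible vertices, the prism
between two order preserving maps, and a bounded contracting homotopy from bounded fillings.
-/

noncomputable section

open Finset

open scoped Classical

namespace Vale.Agent.P067.Band

open Cob

variable {V : Type*}

theorem bd_single (σ : Finset V) (c : ZMod 2) :
    bd (Finsupp.single σ c) = c • ∑ v ∈ σ, Finsupp.single (σ.erase v) (1 : ZMod 2) := by
  simp [bd, Finsupp.linearCombination_single]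

theorem add_self (z : Chain V) : z + z = 0 := ZModModule.add_self z

/-- The faces through `U`, with `U` removed. -/
def lk (U : V) : Chain V →ₗ[ZMod 2] Chain V :=
  Finsupp.linearCombination (ZMod 2)
    fun σ : Finset V => if U ∈ σ then Finsupp.single (σ.erase U) (1 : ZMod 2) else 0

theorem lk_single (U : V) (σ : Finset V) :
    lk U (Finsupp.single σ 1) = if U ∈ σ then Finsupp.single (σ.erase U) 1 else 0 := by
  simp [lk, Finsupp.linearCombination_single]

theorem lk_bd (U : V) (z : Chain V) : lk U (bd z) = bd (lk U z) := by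
  refine LinearMap.congr_fun (f := (lk U).comp bd) (g := bd.comp (lk U)) ?_ z
  refine Finsupp.lhom_ext' fun σ => LinearMap.ext_ring ?_
  simp only [LinearMap.comp_apply, Finsupp.lsingle_apply, bd_single, one_smul, map_sum, lk_single]
  by_cases h : U ∈ σ
  · rw [if_pos h, bd_single, one_smul, ← Finset.add_sum_erase σ _ h, if_neg (notMem_erase U σ),
      zero_add]
    exact sum_congr rfl fun v hv => by
      rw [if_pos (mem_erase.2 ⟨Ne.symm (ne_of_mem_erase hv), h⟩), erase_right_comm]
  · rw [if_neg h, map_zero]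
    exact sum_eq_zero fun v _ => if_neg fun hm => h (mem_of_mem_erase hm)

theorem joinF_single (A σ : Finset V) (c : ZMod 2) :
    joinF A (Finsupp.single σ c) = Finsupp.single (σ ∪ A) c := by
  simp [joinF]

/-- The boundary of a cone. -/
theorem bd_join {U : V} {w : Chain V} (h : ∀ σ ∈ w.support, U ∉ σ) :
    bd (joinF {U} w) = w + joinF {U} (bd w) := by
  induction w using Finsupp.induction with
  | zero => simp
  | single_add σ c f hσ hc ih =>
    rw [Finsupp.support_single_add hσ hc] at h
    have hU : U ∉ σ := h σ (by simp)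
    have ih' := ih fun τ hτ => h τ (by simp [hτ])
    have key : bd (joinF {U} (Finsupp.single σ c)) =
        Finsupp.single σ c + joinF {U} (bd (Finsupp.single σ c)) := by
      rw [joinF_single, bd_single, bd_single, map_smul, map_sum,
        union_comm σ, ← insert_eq, sum_insert hU, erase_insert hU, smul_add,
        Finsupp.smul_single', mul_one]
      refine congrArg₂ _ rfl (congrArg _ (sum_congr rfl fun v hv => ?_))
      rw [joinF_single, union_comm (σ.erase v), ← insert_eq,
        erase_insert_of_ne fun e => hU (by rwa [e])]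
    simp only [map_add, key, ih']
    abel

theorem supp_linComb {W : Type*} (g : W → Chain V) (z : W →₀ ZMod 2) :
    (Finsupp.linearCombination (ZMod 2) g z).support ⊆ z.support.biUnion fun σ => (g σ).support := by
  rw [Finsupp.linearCombination_apply]
  exact Finsupp.support_sum.trans (biUnion_mono fun σ _ => Finsupp.support_smul)

theorem card_linComb {W : Type*} (g : W → Chain V) (z : W →₀ ZMod 2) (N : ℕ)
    (h : ∀ σ ∈ z.support, (g σ).support.card ≤ N) :
    (Finsupp.linearCombination (ZMod 2) g z).support.card ≤ z.support.card * N :=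
  (card_le_card (supp_linComb g z)).trans (card_biUnion_le_card_mul _ _ _ h)

theorem supp_join (A : Finset V) (w : Chain V) : (joinF A w).support ⊆ w.support.image (· ∪ A) :=
  Finsupp.mapDomain_support

theorem lk_supp (U : V) (z : Chain V) :
    ∀ ρ ∈ (lk U z).support, ∃ σ ∈ z.support, U ∈ σ ∧ ρ = σ.erase U := fun ρ hρ => by
  obtain ⟨σ, hσ, hm⟩ := mem_biUnion.1 (supp_linComb _ z hρ)
  by_cases hU : U ∈ σ
  · simp only [if_pos hU] at hm
    exact ⟨σ, hσ, hU, mem_singleton.1 (Finsupp.support_single_subset hm)⟩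
  · simp [hU] at hm

theorem lk_card (U : V) (z : Chain V) : (lk U z).support.card ≤ z.support.card := by
  refine (card_linComb _ z 1 fun σ _ => ?_).trans (mul_one _).le
  split_ifs
  · exact (card_le_card Finsupp.support_single_subset).trans (card_singleton _).le
  · simp

theorem mem_chains (K : Cplx V) {j : ℕ} {z : Chain V} :
    z ∈ K.chains j ↔ ∀ σ ∈ z.support, K.face σ ∧ σ.card = j := by
  simp [Cplx.chains, Finsupp.mem_supported, Set.subset_def]

theorem card_add (a b : Chain V) : (a + b).support.card ≤ a.support.card + b.support.card :=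
  (card_le_card Finsupp.support_add).trans (card_union_le _ _)

theorem card_sum {W : Type*} (s : Finset W) (f : W → Chain V) {N : ℕ}
    (h : ∀ i ∈ s, (f i).support.card ≤ N) : (∑ i ∈ s, f i).support.card ≤ s.card * N :=
  (card_le_card Finsupp.support_finsetSum).trans (card_biUnion_le_card_mul _ _ _ h)

/-- **Clearing.** Vertices with `Q`, no two in one face, are pushed off a chain whose boundary
avoids them, given fillings of their links. -/
theorem clear (K : Cplx V) (Q : V → Prop) (j N : ℕ) (z : Chain V) (hz : z ∈ K.chains j)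
    (hone : ∀ σ, K.face σ → ∀ U ∈ σ, ∀ U' ∈ σ, Q U → Q U' → U = U')
    (hbd : ∀ U, Q U → lk U (bd z) = 0)
    (hfill : ∀ U, Q U → ∀ σ₀ ∈ z.support, U ∈ σ₀ → bd (lk U z) = 0 → ∃ w : Chain V,
      (∀ σ ∈ w.support, σ.card = j ∧ U ∉ σ ∧ K.face (insert U σ) ∧ ∀ x ∈ σ, ¬Q x) ∧
        bd w = lk U z ∧ w.support.card ≤ N) :
    ∃ z' ∈ (K.restrict fun x => ¬Q x).chains j, bd z' = bd z ∧
      z'.support.card ≤ z.support.card + z.support.card * j * N ∧
      ∃ y ∈ K.chains (j + 1), y.support.card ≤ z.support.card * j * N ∧ z = z' + bd y := by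
  rw [mem_chains] at hz
  set Us := (z.support.biUnion id).filter Q with hUs
  have hUsQ : ∀ U ∈ Us, Q U ∧ ∃ σ ∈ z.support, U ∈ σ := fun U hU => by
    obtain ⟨h1, h2⟩ := mem_filter.1 hU
    exact ⟨h2, by simpa using h1⟩
  have hcycle : ∀ U ∈ Us, bd (lk U z) = 0 := fun U hU => by rw [← lk_bd, hbd U (hUsQ U hU).1]
  choose! w hw hwb hwc using fun U (hU : U ∈ Us) =>
    let ⟨hQ, σ, hσ, hm⟩ := hUsQ U hU
    hfill U hQ σ hσ hm (hcycle U hU)
  have hUsc : Us.card ≤ z.support.card * j :=
    (card_filter_le _ _).trans (card_biUnion_le_card_mul _ _ _ fun σ hσ => (hz σ hσ).2.le)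
  set zfree := z.filter fun σ => ∀ x ∈ σ, ¬Q x with hzf
  have hjoin : ∀ U, ∀ σ : Finset V,
      joinF {U} (lk U (Finsupp.single σ 1)) = if U ∈ σ then Finsupp.single σ 1 else 0 := by
    intro U σ
    rw [lk_single]
    split_ifs with h
    · rw [joinF_single, union_comm, ← insert_eq, insert_erase h]
    · simp
  have hdec : z = zfree + ∑ U ∈ Us, joinF {U} (lk U z) := by
    have e : ∀ U, joinF {U} (lk U z) = z.filter fun σ => U ∈ σ := fun U => by
      conv_lhs => rw [← Finsupp.sum_single z, Finsupp.sum, map_sum, map_sum]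
      rw [Finsupp.filter_eq_sum, sum_filter]
      refine sum_congr rfl fun σ _ => ?_
      rw [show Finsupp.single σ (z σ) = z σ • Finsupp.single σ (1 : ZMod 2) by simp,
        map_smul, map_smul, hjoin]
      split_ifs <;> simp
    ext σ
    simp only [e, Finsupp.add_apply, Finsupp.finsetSum_apply, Finsupp.filter_apply, hzf]
    by_cases hσ : σ ∈ z.support
    · by_cases hfree : ∀ x ∈ σ, ¬Q x
      · rw [if_pos hfree, sum_eq_zero fun U hU => if_neg fun hm => hfree U hm (hUsQ U hU).1,
          add_zero]
      · rw [if_neg hfree, zero_add]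
        push Not at hfree
        obtain ⟨U, hU, hQ⟩ := hfree
        rw [sum_eq_single U (fun U' hU' hne => if_neg fun hm =>
            hne (hone σ (hz σ hσ).1 U' hm U hU (hUsQ U' hU').1 hQ))
          (fun h => absurd (mem_filter.2 ⟨mem_biUnion.2 ⟨σ, hσ, hU⟩, hQ⟩) h), if_pos hU]
    · simp [Finsupp.notMem_support_iff.1 hσ]
  set S := ∑ U ∈ Us, w U with hS
  set y := ∑ U ∈ Us, joinF {U} (w U) with hy
  have hbdy : bd y = S + ∑ U ∈ Us, joinF {U} (lk U z) := by
    rw [hy, map_sum, hS, ← sum_add_distrib]
    exact sum_congr rfl fun U hU => by rw [bd_join fun σ hσ => (hw U hU σ hσ).2.1, hwb U hU]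
  have hSc : S.support.card ≤ z.support.card * j * N :=
    (card_sum _ _ hwc).trans (Nat.mul_le_mul_right _ hUsc)
  have hyc : y.support.card ≤ z.support.card * j * N :=
    (card_sum _ _ fun U hU => ((card_le_card (supp_join _ _)).trans card_image_le).trans
      (hwc U hU)).trans (Nat.mul_le_mul_right _ hUsc)
  have hz' : zfree + S = z + bd y := by
    conv_rhs => rw [hdec, hbdy]
    rw [add_assoc, add_left_comm _ S, add_self, add_zero]
  refine ⟨zfree + S, ?_, ?_, ?_, y, ?_, hyc, ?_⟩
  · rw [mem_chains]
    intro σ hσ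
    rcases mem_union.1 (Finsupp.support_add hσ) with h | h
    · rw [Finsupp.support_filter, mem_filter] at h
      exact ⟨⟨(hz σ h.1).1, h.2⟩, (hz σ h.1).2⟩
    · obtain ⟨U, hU, hm⟩ := mem_biUnion.1 (Finsupp.support_finsetSum h)
      obtain ⟨h1, -, h3, h4⟩ := hw U hU σ hm
      exact ⟨⟨K.down h3 (subset_insert _ _), h4⟩, h1⟩
  · have hfree : bd zfree = bd z + ∑ U ∈ Us, lk U z := by
      conv_rhs => rw [hdec, map_add, map_sum]
      rw [add_assoc, ← sum_add_distrib, sum_congr rfl fun U hU => ?_, sum_const_zero, add_zero]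
      · rw [← hdec, bd_join, hcycle U hU, map_zero, add_zero, add_self]
        intro σ hσ
        obtain ⟨τ, -, -, rfl⟩ := lk_supp U z σ hσ
        exact notMem_erase U τ
    rw [map_add, hfree, hS, map_sum, sum_congr rfl fun U hU => hwb U hU, add_assoc, add_self,
      add_zero]
  · refine (card_add _ _).trans (Nat.add_le_add ?_ hSc)
    rw [Finsupp.support_filter]
    exact card_filter_le _ _
  · rw [mem_chains]
    intro σ hσ
    obtain ⟨U, hU, hm⟩ := mem_biUnion.1 (Finsupp.support_finsetSum hσ)
    obtain ⟨τ, hτ, rfl⟩ := mem_image.1 (supp_join _ _ hm)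
    obtain ⟨h1, h2, h3, -⟩ := hw U hU τ hτ
    rw [union_comm, ← insert_eq]
    exact ⟨h3, by rw [card_insert_of_notMem h2, h1]⟩
  · rw [hz', add_assoc, add_self, add_zero]

section Prism

variable [PartialOrder V]

/-- The prism between the identity and `f`. -/
def prism (f : V → V) : Chain V →ₗ[ZMod 2] Chain V :=
  Finsupp.linearCombination (ZMod 2) fun σ : Finset V => ∑ v ∈ σ,
    Finsupp.single (σ.filter (fun x => x ≤ v) ∪ (σ.filter fun x => v ≤ x).image f) (1 : ZMod 2)

theorem prism_single (f : V → V) (σ : Finset V) : prism f (Finsupp.single σ 1) = ∑ v ∈ σ,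
    Finsupp.single (σ.filter (fun x => x ≤ v) ∪ (σ.filter fun x => v ≤ x).image f) (1 : ZMod 2) := by
  simp [prism, Finsupp.linearCombination_single]

theorem prism_top (f : V → V) {τ : Finset V} {M : V} (hτ : ∀ x ∈ τ, x < M) :
    prism f (Finsupp.single (insert M τ) 1) =
      Finsupp.single (insert M τ ∪ {f M}) 1 + joinF {f M} (prism f (Finsupp.single τ 1)) := by
  have hM : M ∉ τ := fun h => lt_irrefl _ (hτ M h)
  rw [prism_single, prism_single, sum_insert hM, map_sum]
  refine congrArg₂ _ (congrArg (Finsupp.single · (1 : ZMod 2)) ?_) (sum_congr rfl fun v hv => ?_)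
  · rw [filter_true_of_mem fun x hx => (mem_insert.1 hx).elim (fun h => h.le) fun h => (hτ x h).le,
      filter_insert, if_pos le_rfl, filter_false_of_mem fun x hx => (hτ x hx).not_ge,
      insert_empty_eq, image_singleton]
  · rw [joinF_single, filter_insert, filter_insert, if_neg (hτ v hv).not_ge, if_pos (hτ v hv).le,
      image_insert, union_insert, union_comm _ {f M}, ← insert_eq]

/-- **The prism identity** on one chain of vertices. -/
theorem bd_prism (f : V → V) (σ : Finset V) (hch : IsChain (· ≤ ·) (σ : Set V))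
    (hf : ∀ x ∈ σ, ∀ y ∈ σ, f x ≠ y) (hinj : Set.InjOn f σ) :
    bd (prism f (Finsupp.single σ 1)) + prism f (bd (Finsupp.single σ 1)) =
      if σ = ∅ then 0 else Finsupp.single σ 1 + Finsupp.single (σ.image f) 1 := by
  induction hn : σ.card generalizing σ with
  | zero => simp [card_eq_zero.1 hn, prism_single, bd_single]
  | succ n ih =>
    have hne : σ.Nonempty := card_pos.1 (by omega)
    obtain ⟨M, hM, hmax⟩ := σ.exists_maximal hne
    set τ := σ.erase M with hτd
    have hσ : σ = insert M τ := (insert_erase hM).symm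
    have hτ : ∀ x ∈ τ, x < M := fun x hx => by
      obtain ⟨hne', hx'⟩ := mem_erase.1 hx
      rcases hch hx' hM hne' with h | h
      · exact lt_of_le_of_ne h hne'
      · exact absurd (le_antisymm (hmax hx' h) h) hne'
    have hMτ : M ∉ τ := notMem_erase M σ
    have hsub : ∀ ρ ⊆ τ, ∀ x ∈ ρ, x < M := fun ρ h x hx => hτ x (h hx)
    have ihρ := ih τ (hch.mono (by simp [hτd, coe_erase]))
      (fun x hx y hy => hf x (mem_of_mem_erase hx) y (mem_of_mem_erase hy))
      (hinj.mono (by simp [hτd, coe_erase])) (by rw [hτd, card_erase_of_mem hM]; omega)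
    have hfM : f M ∉ σ := fun h => hf M hM (f M) h rfl
    have hout : ∀ ρ ∈ (prism f (Finsupp.single τ 1)).support, f M ∉ ρ := by
      intro ρ hρ hmem
      rw [prism_single] at hρ
      obtain ⟨v, hv, hm⟩ := mem_biUnion.1 (Finsupp.support_finsetSum hρ)
      rw [mem_singleton.1 (Finsupp.support_single_subset hm)] at hmem
      rcases mem_union.1 hmem with h | h
      · exact hfM (mem_of_mem_erase (mem_filter.1 h).1)
      · obtain ⟨x, hx, he⟩ := mem_image.1 h
        have hxσ := mem_of_mem_erase (mem_filter.1 hx).1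
        have hxM : x = M := hinj hxσ hM he
        exact hMτ (hxM ▸ (mem_filter.1 hx).1)
    -- the boundaries of the top face and of the recursion
    have e1 : bd (prism f (Finsupp.single σ 1)) = (Finsupp.single σ 1 +
        joinF {f M} (bd (Finsupp.single σ 1))) + (prism f (Finsupp.single τ 1) +
          joinF {f M} (bd (prism f (Finsupp.single τ 1)))) := by
      rw [hσ, prism_top f hτ, map_add, ← hσ, ← joinF_single {f M} σ 1,
        bd_join (fun ρ hρ => by rw [mem_singleton.1 (Finsupp.support_single_subset hρ)]; exact hfM),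
        bd_join hout]
    have e2 : prism f (bd (Finsupp.single σ 1)) = prism f (Finsupp.single τ 1) +
        ∑ v ∈ τ, (Finsupp.single (σ.erase v ∪ {f M}) 1 +
          joinF {f M} (prism f (Finsupp.single (τ.erase v) 1))) := by
      rw [bd_single, one_smul, map_sum, ← add_sum_erase σ _ hM]
      refine congrArg₂ _ rfl (sum_congr rfl fun v hv => ?_)
      have he : σ.erase v = insert M (τ.erase v) := by
        rw [hσ, erase_insert_of_ne fun e : M = v => hMτ (e ▸ hv)]
      rw [he, prism_top f (hsub _ (erase_subset _ _))]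
    have e3 : joinF {f M} (bd (Finsupp.single σ (1 : ZMod 2))) =
        Finsupp.single (τ ∪ {f M}) 1 + ∑ v ∈ τ, Finsupp.single (σ.erase v ∪ {f M}) 1 := by
      rw [bd_single, one_smul, map_sum, ← add_sum_erase σ _ hM]
      exact congrArg₂ _ (joinF_single _ _ _) (sum_congr rfl fun v _ => joinF_single _ _ _)
    have e4 : joinF {f M} (bd (prism f (Finsupp.single τ 1))) =
        ∑ v ∈ τ, joinF {f M} (prism f (Finsupp.single (τ.erase v) 1)) +
          if τ = ∅ then 0 else
            Finsupp.single (τ ∪ {f M}) 1 + Finsupp.single (σ.image f) 1 := by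
      have h : bd (prism f (Finsupp.single τ 1)) = prism f (bd (Finsupp.single τ 1)) +
          if τ = ∅ then 0 else Finsupp.single τ 1 + Finsupp.single (τ.image f) 1 := by
        rw [← ihρ, ← add_assoc, add_comm (prism f _) (bd _), add_assoc, add_self, add_zero]
      rw [h, map_add, bd_single, one_smul, map_sum, map_sum]
      split_ifs with h0
      · simp
      · rw [map_add, joinF_single, joinF_single, hσ, image_insert, union_comm (τ.image f),
          ← insert_eq]
    rw [if_neg hne.ne_empty, e1, e2, e3, e4, sum_add_distrib]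
    rcases τ.eq_empty_or_nonempty with h0 | h0
    · rw [h0, hσ, h0]
      simp [prism_single]
    · rw [if_neg h0.ne_empty]
      generalize prism f (Finsupp.single τ (1 : ZMod 2)) = P
      generalize (∑ v ∈ τ, joinF {f M} (prism f (Finsupp.single (τ.erase v) (1 : ZMod 2)))) = Q
      generalize (∑ v ∈ τ, (Finsupp.single (σ.erase v ∪ {f M}) (1 : ZMod 2))) = R
      generalize Finsupp.single (τ ∪ {f M}) (1 : ZMod 2) = A
      generalize Finsupp.single (σ.image f) (1 : ZMod 2) = B
      generalize Finsupp.single σ (1 : ZMod 2) = D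
      have := add_self P; have := add_self Q; have := add_self R; have := add_self A
      calc D + (A + R) + (P + (Q + (A + B))) + (P + (R + Q))
          = (D + B) + ((P + P) + (Q + Q) + (R + R) + (A + A)) := by abel
        _ = D + B := by simp only [add_self, add_zero]

end Prism

/-- Bounded fillings in all the needed sizes give a bounded contracting homotopy. -/
theorem cone_of_fills (m : ℕ) (f : ℕ → ℕ) : ∃ M L₀ : ℕ, ∀ (V : Type) (K : Cplx V),
    (∀ L ≤ L₀, K.Fills m L (f L)) → K.Cone m M := by
  induction m with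
  | zero => exact ⟨0, 0, fun V K _ => ⟨fun _ => 0, fun σ _ h => absurd h (Nat.not_lt_zero _)⟩⟩
  | succ m ih =>
    obtain ⟨M, L₀, h⟩ := ih
    set L := 1 + m * M
    refine ⟨max M (f L), max L₀ L, fun V K hK => ?_⟩
    obtain ⟨H, hH⟩ := h V K fun L' hL' j hj z hz h0 hc =>
      hK L' (hL'.trans (le_max_left _ _)) j (Nat.lt_succ_of_lt hj) z hz h0 hc
    have hcyc : ∀ σ, K.face σ → σ.card = m →
        (Finsupp.single σ 1 + ∑ v ∈ σ, H (σ.erase v)) ∈ K.chains m ∧
          bd (Finsupp.single σ 1 + ∑ v ∈ σ, H (σ.erase v)) = 0 ∧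
          (Finsupp.single σ 1 + ∑ v ∈ σ, H (σ.erase v)).support.card ≤ L := by
      intro σ hσ hc
      have hv : ∀ v ∈ σ, K.face (σ.erase v) ∧ (σ.erase v).card < m ∧ (σ.erase v).card + 1 = m :=
        fun v hv => by
          have := card_pos.2 ⟨v, hv⟩
          exact ⟨K.down hσ (erase_subset _ _), by rw [card_erase_of_mem hv]; omega,
            by rw [card_erase_of_mem hv]; omega⟩
      refine ⟨Submodule.add_mem _ ((mem_chains K).2 fun τ hτ => ?_) (Submodule.sum_mem _ fun v h' => ?_), ?_, ?_⟩
      · rw [mem_singleton.1 (Finsupp.support_single_subset hτ)]; exact ⟨hσ, hc⟩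
      · obtain ⟨a, b, c⟩ := hv v h'
        have := (hH _ a b).1
        rwa [c] at this
      · rw [map_add, map_sum, bd_single, one_smul, ← sum_add_distrib]
        have e : ∀ v ∈ σ, Finsupp.single (σ.erase v) (1 : ZMod 2) + bd (H (σ.erase v)) =
            ∑ u ∈ σ.erase v, H ((σ.erase v).erase u) := fun v h' => by
          obtain ⟨a, b, -⟩ := hv v h'
          rw [← (hH _ a b).2.2, add_comm (bd _), add_assoc, add_self, add_zero]
        rw [sum_congr rfl e, sum_sigma']
        refine sum_involution (fun p _ => ⟨p.2, p.1⟩) (fun p _ => ?_) (fun p hp _ => ?_)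
          (fun p hp => ?_) fun p _ => rfl
        · rw [erase_right_comm]; exact add_self _
        · intro e
          exact ne_of_mem_erase (mem_sigma.1 hp).2 (congrArg Sigma.fst e)
        · obtain ⟨h1, h2⟩ := mem_sigma.1 hp
          exact mem_sigma.2 ⟨mem_of_mem_erase h2, mem_erase.2 ⟨(ne_of_mem_erase h2).symm, h1⟩⟩
      · refine (card_add _ _).trans (Nat.add_le_add
          ((card_le_card Finsupp.support_single_subset).trans (card_singleton _).le) ?_)
        refine (card_sum _ _ fun v h' => (hH _ (hv v h').1 (hv v h').2.1).2.1).trans ?_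
        rw [hc]
    choose! W hW1 hW2 hW3 using fun σ (h : K.face σ ∧ σ.card = m) =>
      hK L (le_max_right _ _) m (Nat.lt_succ_self m) _ (hcyc σ h.1 h.2).1 (hcyc σ h.1 h.2).2.1
        (hcyc σ h.1 h.2).2.2
    refine ⟨fun σ => if σ.card = m then W σ else H σ, fun σ hσ hc => ?_⟩
    have he : ∀ v ∈ σ, (if (σ.erase v).card = m then W (σ.erase v) else H (σ.erase v)) =
        H (σ.erase v) := fun v hv => by
      have := card_pos.2 ⟨v, hv⟩
      exact if_neg (by rw [card_erase_of_mem hv]; omega)
    rw [sum_congr rfl he]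
    by_cases hm : σ.card = m
    · simp only [if_pos hm]
      refine ⟨by rw [hm]; exact hW1 σ ⟨hσ, hm⟩, (hW3 σ ⟨hσ, hm⟩).trans (le_max_right _ _), ?_⟩
      rw [hW2 σ ⟨hσ, hm⟩, add_assoc, add_self, add_zero]
    · simp only [if_neg hm]
      obtain ⟨a, b, c⟩ := hH σ hσ (by omega)
      exact ⟨a, b.trans (le_max_left _ _), c⟩

end Vale.Agent.P067.Band
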