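import Vale.Agent.P067.Band.Sys
import Vale.Agent.P067.Band.Chains

/-!
The band lemma: bounded fillings and bounded contracting homotopies in the complexes of chains of
a system of subspaces with dimensions in an interval, over a large field.
-/

noncomputable section

open Module Finset

open scoped Classical

attribute [-instance] Submodule.decidableEq

namespace Vale.Agent.P067.Band

open Cob

section Chain

variable {V W : Type*}

theorem vpush_single (g : V → W) (σ : Finset V) (c : ZMod 2) :
    vpush g (Finsupp.single σ c) = Finsupp.single (σ.image g) c := by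
  simp [vpush]

theorem supp_vpush (g : V → W) (z : Chain V) :
    (vpush g z).support ⊆ z.support.image fun σ => σ.image g :=
  Finsupp.mapDomain_support

theorem chain_sum (z : Chain V) : z = ∑ σ ∈ z.support, z σ • Finsupp.single σ (1 : ZMod 2) := by
  conv_lhs => rw [← Finsupp.sum_single z, Finsupp.sum]
  exact Finset.sum_congr rfl fun σ _ => by simp

/-- A vertex map commutes with the boundary on faces where it is injective. -/
theorem bd_vpush (g : V → W) (z : Chain V) (h : ∀ σ ∈ z.support, Set.InjOn g σ) :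
    bd (vpush g z) = vpush g (bd z) := by
  rw [chain_sum z]
  simp only [map_sum, map_smul]
  refine Finset.sum_congr rfl fun σ hσ => congrArg _ ?_
  rw [vpush_single, bd_single, one_smul, bd_single, one_smul, map_sum,
    Finset.sum_image (h σ hσ)]
  refine Finset.sum_congr rfl fun v hv => ?_
  rw [vpush_single]
  refine congrArg (fun ρ => Finsupp.single ρ (1 : ZMod 2)) ?_
  ext w
  simp only [mem_erase, mem_image]
  constructor
  · rintro ⟨hne, x, hx, rfl⟩
    exact ⟨x, ⟨fun e => hne (e ▸ rfl), hx⟩, rfl⟩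
  · rintro ⟨x, ⟨hne, hx⟩, rfl⟩
    exact ⟨fun e => hne (h σ hσ hx hv e), x, hx, rfl⟩

/-- Fillings in an embedded complex. -/
theorem fill_of_embed (K : Cplx W) (g : W → V) (hg : Function.Injective g) {m L N j : ℕ}
    (hK : K.Fills m L N) (hj : j < m) (z : Chain V)
    (hz : ∀ σ ∈ z.support, σ.card = j ∧ ∃ τ, K.face τ ∧ τ.image g = σ)
    (hbd : bd z = 0) (hL : z.support.card ≤ L) :
    ∃ w : Chain V, (∀ σ ∈ w.support, σ.card = j + 1 ∧ ∃ τ, K.face τ ∧ τ.image g = σ) ∧
      bd w = z ∧ w.support.card ≤ N := by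
  have hi : Function.Injective fun σ : Finset W => σ.image g := Finset.image_injective hg
  obtain ⟨c, hc⟩ : ∃ c : Chain W, vpush g c = z :=
    ⟨Finsupp.comapDomain _ z hi.injOn, Finsupp.mapDomain_comapDomain _ hi z fun σ hσ => by
      obtain ⟨-, τ, -, e⟩ := hz σ hσ
      exact ⟨τ, e⟩⟩
  have hs : c.support.image (fun σ : Finset W => σ.image g) = z.support := by
    rw [← hc]; exact (Finsupp.mapDomain_support_of_injective hi c).symm
  have hcc : c ∈ K.chains j := by
    rw [mem_chains]
    intro τ hτ
    obtain ⟨h1, τ', h2, h3⟩ := hz (τ.image g) (hs ▸ mem_image_of_mem _ hτ)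
    cases hi h3
    exact ⟨h2, by rwa [card_image_of_injective _ hg] at h1⟩
  have hcb : bd c = 0 := by
    refine Finsupp.mapDomain_injective hi ?_
    show vpush g (bd c) = vpush g 0
    rw [← bd_vpush g c fun σ _ => hg.injOn, hc, hbd, map_zero]
  obtain ⟨w, hw, hwb, hwc⟩ := hK j hj c hcc hcb (by rwa [← hs, card_image_of_injective _ hi] at hL)
  refine ⟨vpush g w, fun σ hσ => ?_, ?_, ((card_le_card (supp_vpush g w)).trans card_image_le).trans
    hwc⟩
  · obtain ⟨τ, hτ, rfl⟩ := mem_image.1 (supp_vpush g w hσ)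
    obtain ⟨h1, h2⟩ := (mem_chains K).1 hw τ hτ
    exact ⟨by rw [card_image_of_injective _ hg]; exact h2, τ, h1, rfl⟩
  · rw [bd_vpush g w fun σ _ => hg.injOn, hwb, hc]

theorem chain_image [PartialOrder V] [PartialOrder W] {g : V → W} (hg : Monotone g) {s : Set V}
    (h : IsChain (· ≤ ·) s) : IsChain (· ≤ ·) (g '' s) := by
  rintro _ ⟨x, hx, rfl⟩ _ ⟨y, hy, rfl⟩ _
  exact (h.total hx hy).imp (fun e => hg e) (fun e => hg e)

/-- A contracting homotopy gives exactness. -/
theorem ex_of_cone (K : Cplx V) {m N : ℕ} (h : K.Cone m N) : K.Ex m := by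
  obtain ⟨H, hH⟩ := h
  intro j hj z hz hbd
  rw [mem_chains] at hz
  refine ⟨Finsupp.linearCombination (ZMod 2) H z, (mem_chains K).2 fun τ hτ => ?_, ?_⟩
  · obtain ⟨σ, hσ, hm⟩ := mem_biUnion.1 (supp_linComb H z hτ)
    obtain ⟨h1, h2⟩ := hz σ hσ
    have := (mem_chains K).1 (hH σ h1 (h2 ▸ hj)).1 τ hm
    rwa [h2] at this
  · have key : bd (Finsupp.linearCombination (ZMod 2) H z) +
        Finsupp.linearCombination (ZMod 2) H (bd z) = z := by
      conv_rhs => rw [chain_sum z]
      conv_lhs => rw [chain_sum z]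
      simp only [map_sum, map_smul, ← Finset.sum_add_distrib, ← smul_add]
      refine Finset.sum_congr rfl fun σ hσ => congrArg _ ?_
      obtain ⟨h1, h2⟩ := hz σ hσ
      simp only [Finsupp.linearCombination_single, one_smul, bd_single, map_sum]
      exact (hH σ h1 (h2 ▸ hj)).2.2
    rwa [hbd, map_zero, add_zero] at key

end Chain

namespace Sys

variable {F V : Type} [Field F] [AddCommGroup V] [Module F V]

/-- The complex of chains of members with dimensions in the interval `[a, b]`. -/
def band (S : Sys F V) (a b : ℕ) : Cplx (Submodule F V) where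
  face σ := (∀ U ∈ σ, S.X U ∧ a ≤ finrank F U ∧ finrank F U ≤ b) ∧
    IsChain (· ≤ ·) (σ : Set (Submodule F V))
  empty := by simp
  down h hs := ⟨fun U hU => h.1 U (hs hU), h.2.mono (Finset.coe_subset.2 hs)⟩

theorem band_eq_of_finrank [FiniteDimensional F V] (S : Sys F V) {a b : ℕ}
    {σ : Finset (Submodule F V)} (h : (S.band a b).face σ) {U U' : Submodule F V} (hU : U ∈ σ)
    (hU' : U' ∈ σ) (hd : finrank F U = finrank F U') : U = U' := by
  rcases h.2.total hU hU' with e | e
  · exact Submodule.eq_of_le_of_finrank_eq e hd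
  · exact (Submodule.eq_of_le_of_finrank_eq e hd.symm).symm

theorem band_le_of_finrank [FiniteDimensional F V] (S : Sys F V) {a b : ℕ}
    {σ : Finset (Submodule F V)} (h : (S.band a b).face σ) {U U' : Submodule F V} (hU : U ∈ σ)
    (hU' : U' ∈ σ) (hd : finrank F U ≤ finrank F U') : U ≤ U' := by
  rcases h.2.total hU hU' with e | e
  · exact e
  · exact (Submodule.eq_of_le_of_finrank_le e hd).symm.le

end Sys

/-- Uniform bounded fillings in all bands starting at dimension `a`. -/
def BandFill (m L a φ N P : ℕ) : Prop :=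
  ∀ (F V : Type) [Field F] [AddCommGroup V] [Module F V] [FiniteDimensional F V] (S : Sys F V)
    (b : ℕ), m + a ≤ b + 1 → b < finrank F V → S.fam.card ≤ φ → (P : ℕ∞) ≤ ENat.card F →
      (S.band a b).Fills m L N

/-- The band lemma for bands starting at dimension one. -/
theorem bandFill_one (m φ : ℕ) : ∀ L, ∃ N P, BandFill m L 1 φ N P := by
  induction m with
  | zero =>
    exact fun L => ⟨0, 0, fun _ _ _ _ _ _ _ _ _ _ _ _ j hj => absurd hj (Nat.not_lt_zero j)⟩
  | succ m ih =>
    intro L
    obtain ⟨N₁, P₁, h₁⟩ := ih L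
    set L' := L + L * (m + 1) * N₁
    refine ⟨L' * (m + 1) + L' + L * (m + 1) * N₁,
      max P₁ ((L' * (m + 1) + 1) * (φ + 1) + 1),
      fun F V _ _ _ _ S b hb hn hφ hP j hj z hz hbd hL => ?_⟩
    have hz0 := (mem_chains _).1 hz
    -- clear the top dimension
    obtain ⟨z', hz', hzb', hzc', y, hy, hyc, hyz⟩ := clear (S.band 1 b)
      (fun U => finrank F U = b) j N₁ z hz
      (fun σ hσ U hU U' hU' e e' => S.band_eq_of_finrank hσ hU hU' (e.trans e'.symm))
      (fun U _ => by rw [hbd, map_zero]) fun B hB σ₀ hσ₀ hBσ hcyc => by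
        obtain ⟨hσf, hσc⟩ := hz0 σ₀ hσ₀
        obtain ⟨i, rfl⟩ : ∃ i, j = i + 1 :=
          Nat.exists_eq_succ_of_ne_zero (by rw [← hσc]; exact card_ne_zero_of_mem hBσ)
        have hBX : S.X B := (hσf.1 B hBσ).1
        have hinj : Function.Injective (Submodule.map B.subtype) :=
          Submodule.map_injective_of_injective B.subtype_injective
        obtain ⟨w, hw, hwb, hwc⟩ := fill_of_embed ((S.lower B hBX).band 1 (b - 1))
          (Submodule.map B.subtype) hinj (j := i) (h₁ F B (S.lower B hBX) (b - 1) (by omega)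
            (by omega) ((Finset.card_image_le).trans hφ)
            (le_trans (by exact_mod_cast le_max_left _ _) hP)) (by omega) (lk B z)
          (fun ρ hρ => by
            obtain ⟨σ, hσ, hm, rfl⟩ := lk_supp B z ρ hρ
            obtain ⟨hf, hc⟩ := hz0 σ hσ
            have hle : ∀ x ∈ σ.erase B, x ≤ B ∧ finrank F x < b := fun x hx => by
              obtain ⟨hne, hx⟩ := mem_erase.1 hx
              have h1 := (hf.1 x hx).2.2
              refine ⟨S.band_le_of_finrank hf hx hm (hB ▸ h1), lt_of_le_of_ne h1 fun e => ?_⟩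
              exact hne (S.band_eq_of_finrank hf hx hm (e.trans hB.symm))
            have e : ∀ x ∈ σ.erase B, (x.comap B.subtype).map B.subtype = x := fun x hx => by
              rw [Submodule.map_comap_subtype, inf_eq_right.2 (hle x hx).1]
            refine ⟨by rw [card_erase_of_mem hm, hc]; rfl,
              (σ.erase B).image (Submodule.comap B.subtype), ⟨fun U hU => ?_, ?_⟩, ?_⟩
            · obtain ⟨x, hx, rfl⟩ := mem_image.1 hU
              obtain ⟨h1, h2, h3⟩ := hf.1 x (mem_of_mem_erase hx)
              have h4 := Submodule.finrank_map_subtype_eq B (x.comap B.subtype)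
              rw [e x hx] at h4
              have h5 := (hle x hx).2
              refine ⟨show S.X _ by rw [e x hx]; exact h1, ?_, ?_⟩ <;> omega
            · rw [coe_image]
              exact chain_image (fun x y h => Submodule.comap_mono h)
                (hf.2.mono (Finset.coe_subset.2 (erase_subset B σ)))
            · rw [image_image]
              exact (image_congr fun x hx => e x hx).trans image_id)
          hcyc ((lk_card B z).trans hL)
        refine ⟨w, fun σ hσ => ?_, hwb, hwc⟩
        obtain ⟨hc, τ, hτ, rfl⟩ := hw σ hσ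
        have hd : ∀ x ∈ τ.image (Submodule.map B.subtype),
            S.X x ∧ x ≤ B ∧ 1 ≤ finrank F x ∧ finrank F x < b := fun x hx => by
          obtain ⟨U, hU, rfl⟩ := mem_image.1 hx
          obtain ⟨h1, h2, h3⟩ := hτ.1 U hU
          refine ⟨h1, Submodule.map_subtype_le B U, ?_⟩
          rw [Submodule.finrank_map_subtype_eq]
          omega
        refine ⟨hc, fun h => ?_, ⟨fun U hU => ?_, ?_⟩, fun x hx => (hd x hx).2.2.2.ne⟩
        · exact (hd B h).2.2.2.ne hB
        · rcases mem_insert.1 hU with rfl | hU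
          · exact ⟨hBX, by omega, hB.le⟩
          · exact ⟨(hd U hU).1, (hd U hU).2.2.1, (hd U hU).2.2.2.le⟩
        · rw [coe_insert]
          refine IsChain.insert ?_ fun x hx _ => Or.inr (hd x (mem_coe.1 hx)).2.1
          rw [coe_image]
          exact chain_image (fun x y h => Submodule.map_mono h) hτ.2
    rw [mem_chains] at hz'
    have hz'L : z'.support.card ≤ L' :=
      hzc'.trans (Nat.add_le_add hL (Nat.mul_le_mul (Nat.mul_le_mul hL hj.le) le_rfl))
    -- a line in general position
    set ξ := z'.support.biUnion id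
    have hξd : ∀ σ ∈ z'.support, ∀ x ∈ σ, S.X x ∧ 1 ≤ finrank F x ∧ finrank F x < b :=
      fun σ hσ x hx => by
        obtain ⟨⟨hf, hQ⟩, -⟩ := hz' σ hσ
        exact ⟨(hf.1 x hx).1, (hf.1 x hx).2.1, lt_of_le_of_ne (hf.1 x hx).2.2 (hQ x hx)⟩
    have hξc : ξ.card ≤ L' * (m + 1) :=
      (card_biUnion_le_card_mul _ _ j fun σ hσ => (hz' σ hσ).2.le).trans
        (Nat.mul_le_mul hz'L hj.le)
    obtain ⟨u, hu0, huξ, hgen⟩ := S.exists_generic ξ
      (fun U hU => by
        obtain ⟨σ, hσ, hm⟩ := mem_biUnion.1 hU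
        intro e
        have := (hξd σ hσ U hm).2.2
        rw [e, finrank_top] at this
        omega)
      (lt_of_lt_of_le (Nat.cast_lt.2 (lt_of_lt_of_le (Nat.lt_succ_of_le (Nat.mul_le_mul
        (Nat.succ_le_succ hξc) (Nat.succ_le_succ hφ))) (le_max_right P₁ _))) hP) (by omega)
    set ℓ := Submodule.span F {u}
    set f : Submodule F V → Submodule F V := fun U => U ⊔ ℓ with hf
    have hux : ∀ σ ∈ z'.support, ∀ x ∈ σ, u ∉ x := fun σ hσ x hx =>
      huξ x (mem_biUnion.2 ⟨σ, hσ, hx⟩)
    have hfd : ∀ σ ∈ z'.support, ∀ x ∈ σ, finrank F (f x) = finrank F x + 1 := fun σ hσ x hx =>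
      finrank_sup_line (hux σ hσ x hx)
    have hfX : ∀ σ ∈ z'.support, ∀ x ∈ σ, S.X (f x) := fun σ hσ x hx => by
      obtain ⟨h1, -, h3⟩ := hξd σ hσ x hx
      exact S.sup_line (Or.inl h1) (by omega) (hux σ hσ x hx)
        (hgen x (mem_insert_of_mem (mem_biUnion.2 ⟨σ, hσ, hx⟩)))
    have hu' : u ∉ (⊥ : Submodule F V) := by simpa using hu0
    have hlX : S.X ℓ := by
      have := S.sup_line (Or.inr rfl) (by rw [finrank_bot]; omega) hu'
        (hgen ⊥ (mem_insert_self _ _))
      rwa [bot_sup_eq] at this
    have hld : finrank F ℓ = 1 := finrank_span_singleton hu0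
    have hne : ∀ σ ∈ z'.support, ∀ x ∈ σ, ∀ y ∈ σ, f x ≠ y := fun σ hσ x _ y hy e =>
      hux σ hσ y hy (e ▸ Submodule.mem_sup_right (Submodule.mem_span_singleton_self u))
    have hinj : ∀ σ ∈ z'.support, Set.InjOn f σ := fun σ hσ x hx y hy e =>
      S.band_eq_of_finrank (hz' σ hσ).1.1 hx hy (by
        have a := hfd σ hσ x hx
        have b := hfd σ hσ y hy
        rw [e] at a
        omega)
    have hfmono : Monotone f := fun x y h => sup_le_sup_right h _
    -- prism and cone
    refine ⟨prism f z' + joinF {ℓ} (vpush f z') + y, ?_, ?_, ?_⟩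
    · refine Submodule.add_mem _ (Submodule.add_mem _ ((mem_chains _).2 fun ρ hρ => ?_)
        ((mem_chains _).2 fun ρ hρ => ?_)) hy
      · obtain ⟨σ, hσ, hm⟩ := mem_biUnion.1 (supp_linComb _ z' hρ)
        obtain ⟨v, hv, hm⟩ := mem_biUnion.1 (Finsupp.support_finsetSum hm)
        rw [mem_singleton.1 (Finsupp.support_single_subset hm)]
        obtain ⟨⟨hF, -⟩, hc⟩ := hz' σ hσ
        refine ⟨⟨fun U hU => ?_, fun x hx y hy hxy => ?_⟩, ?_⟩
        · rcases mem_union.1 hU with h | h
          · exact hF.1 U (mem_filter.1 h).1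
          · obtain ⟨x, hx, rfl⟩ := mem_image.1 h
            have hx := (mem_filter.1 hx).1
            have h1 := hξd σ hσ x hx
            rw [hfd σ hσ x hx]
            exact ⟨hfX σ hσ x hx, by omega, by omega⟩
        · simp only [mem_coe, mem_union, mem_filter, mem_image] at hx hy
          rcases hx with ⟨hx, hxv⟩ | ⟨x, ⟨hx, hxv⟩, rfl⟩ <;>
            rcases hy with ⟨hy, hyv⟩ | ⟨y, ⟨hy, hyv⟩, rfl⟩
          · exact hF.2 hx hy hxy
          · exact Or.inl (hxv.trans (hyv.trans le_sup_left))
          · exact Or.inr (hyv.trans (hxv.trans le_sup_left))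
          · exact (hF.2.total hx hy).imp (@hfmono x y) (@hfmono y x)
        · rw [card_union_of_disjoint (disjoint_left.2 fun x hx hx' => by
              obtain ⟨x', hx', e⟩ := mem_image.1 hx'
              exact hne σ hσ x' (mem_filter.1 hx').1 x (mem_filter.1 hx).1 e),
            card_image_of_injOn ((hinj σ hσ).mono (Finset.coe_subset.2 (filter_subset _ _))), ← card_union_add_card_inter,
            ← filter_or, ← filter_and, filter_true_of_mem (fun x hx => hF.2.total hx hv), hc,
            show σ.filter (fun x => x ≤ v ∧ v ≤ x) = {v} by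
              ext x
              simp only [mem_filter, mem_singleton]
              exact ⟨fun h => le_antisymm h.2.1 h.2.2, fun h => by subst h; exact ⟨hv, le_rfl, le_rfl⟩⟩,
            card_singleton]
      · obtain ⟨τ, hτ, rfl⟩ := mem_image.1 (supp_join _ _ hρ)
        obtain ⟨σ, hσ, rfl⟩ := mem_image.1 (supp_vpush _ _ hτ)
        obtain ⟨⟨hF, -⟩, hc⟩ := hz' σ hσ
        rw [union_comm, ← insert_eq]
        refine ⟨⟨fun U hU => ?_, ?_⟩, ?_⟩
        · rcases mem_insert.1 hU with rfl | hU
          · exact ⟨hlX, hld.ge, by omega⟩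
          · obtain ⟨x, hx, rfl⟩ := mem_image.1 hU
            have h1 := hξd σ hσ x hx
            rw [hfd σ hσ x hx]
            exact ⟨hfX σ hσ x hx, by omega, by omega⟩
        · rw [coe_insert, coe_image]
          exact (chain_image hfmono hF.2).insert fun b hb _ => by
            obtain ⟨x, -, rfl⟩ := hb
            exact Or.inl le_sup_right
        · rw [card_insert_of_notMem, card_image_of_injOn (hinj σ hσ), hc]
          intro h
          obtain ⟨x, hx, e⟩ := mem_image.1 h
          have a := hfd σ hσ x hx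
          have b := (hξd σ hσ x hx).2.1
          rw [e, hld] at a
          omega
    · have hv : ∀ τ ∈ (vpush f z').support, ℓ ∉ τ := fun τ hτ h => by
        obtain ⟨σ, hσ, rfl⟩ := mem_image.1 (supp_vpush _ _ hτ)
        obtain ⟨x, hx, e⟩ := mem_image.1 h
        have a := hfd σ hσ x hx
        have b := (hξd σ hσ x hx).2.1
        rw [e, hld] at a
        omega
      have key : bd (prism f z') + prism f (bd z') + vpush f z' = z' := by
        conv_rhs => rw [chain_sum z']
        conv_lhs => rw [chain_sum z']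
        simp only [map_sum, map_smul, ← Finset.sum_add_distrib, ← smul_add]
        refine Finset.sum_congr rfl fun σ hσ => congrArg _ ?_
        rw [vpush_single, bd_prism f σ (hz' σ hσ).1.1.2 (hne σ hσ) (hinj σ hσ)]
        split_ifs with h
        · subst h; simp
        · rw [add_assoc, add_self, add_zero]
      rw [hzb', hbd, map_zero, add_zero] at key
      rw [map_add, map_add, bd_join hv, bd_vpush f z' hinj, hzb', hbd, map_zero, map_zero,
        add_zero, key, ← hyz]
    · refine (card_add _ _).trans (Nat.add_le_add ((card_add _ _).trans (Nat.add_le_add ?_ ?_)) ?_)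
      · refine (card_linComb _ z' (m + 1) fun σ hσ => ?_).trans
          (Nat.mul_le_mul_right _ hz'L)
        refine (card_sum _ _ (N := 1) fun v _ => ?_).trans ?_
        · exact (card_le_card Finsupp.support_single_subset).trans (card_singleton _).le
        · rw [mul_one, (hz' σ hσ).2]; exact hj.le
      · exact ((card_le_card (supp_join _ _)).trans card_image_le).trans
          (((card_le_card (supp_vpush _ _)).trans card_image_le).trans hz'L)
      · exact hyc.trans (Nat.mul_le_mul (Nat.mul_le_mul hL hj.le) le_rfl)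

/-- **The band lemma.** -/
theorem bandFill (m φ : ℕ) {a : ℕ} (ha : 1 ≤ a) : ∀ L, ∃ N P, BandFill m L a φ N P := by
  induction a, ha using Nat.le_induction with
  | base => exact bandFill_one m φ
  | succ a ha ih =>
    intro L
    obtain ⟨N', P', h'⟩ := ih L
    obtain ⟨N₁, P₁, h₁⟩ := bandFill_one m φ N'
    refine ⟨N' + N' * m * N₁, max P' P₁,
      fun F V _ _ _ _ S b hb hn hφ hP j hj z hz hbd hL => ?_⟩
    rw [mem_chains] at hz
    obtain ⟨w, hw, hwb, hwc⟩ := h' F V S b (by omega) hn hφ
      (le_trans (by exact_mod_cast le_max_left _ _) hP) j hj z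
      ((mem_chains _).2 fun σ hσ => ⟨⟨fun U hU => by
        obtain ⟨h1, h2, h3⟩ := (hz σ hσ).1.1 U hU
        exact ⟨h1, by omega, h3⟩, (hz σ hσ).1.2⟩, (hz σ hσ).2⟩) hbd hL
    have hw0 := (mem_chains _).1 hw
    obtain ⟨w', hw', hwb', hwc', -⟩ := clear (S.band a b) (fun U => finrank F U = a) (j + 1) N₁ w hw
      (fun σ hσ U hU U' hU' e e' => S.band_eq_of_finrank hσ hU hU' (e.trans e'.symm))
      (fun U hU => by
        rw [hwb]
        refine Finsupp.support_eq_empty.1 (eq_empty_of_forall_notMem fun ρ hρ => ?_)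
        obtain ⟨σ, hσ, hm, -⟩ := lk_supp U z ρ hρ
        have := ((hz σ hσ).1.1 U hm).2.1
        omega) fun A hA σ₀ hσ₀ hAσ hcyc => by
        have hAX : S.X A := ((hw0 σ₀ hσ₀).1.1 A hAσ).1
        have hinj : Function.Injective (Submodule.comap A.mkQ) :=
          Submodule.comap_injective_of_surjective A.mkQ_surjective
        have hq := Submodule.finrank_quotient_add_finrank A
        obtain ⟨c, hc, hcb, hcc⟩ := fill_of_embed ((S.upper A hAX).band 1 (b - a))
          (Submodule.comap A.mkQ) hinj (j := j) (h₁ F (V ⧸ A) (S.upper A hAX) (b - a) (by omega)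
            (by omega) ((Finset.card_image_le).trans hφ)
            (le_trans (by exact_mod_cast le_max_right _ _) hP)) hj (lk A w)
          (fun ρ hρ => by
            obtain ⟨σ, hσ, hm, rfl⟩ := lk_supp A w ρ hρ
            obtain ⟨hf, hc⟩ := hw0 σ hσ
            have hle : ∀ x ∈ σ.erase A, A ≤ x ∧ a < finrank F x := fun x hx => by
              obtain ⟨hne, hx⟩ := mem_erase.1 hx
              have h1 := (hf.1 x hx).2.1
              refine ⟨S.band_le_of_finrank hf hm hx (hA ▸ h1), lt_of_le_of_ne h1 fun e => ?_⟩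
              exact hne (S.band_eq_of_finrank hf hx hm (e.symm.trans hA.symm))
            have e : ∀ x ∈ σ.erase A, (x.map A.mkQ).comap A.mkQ = x := fun x hx => by
              rw [Submodule.comap_map_mkQ, sup_eq_right.2 (hle x hx).1]
            refine ⟨by rw [card_erase_of_mem hm, hc]; rfl,
              (σ.erase A).image (Submodule.map A.mkQ), ⟨fun U hU => ?_, ?_⟩, ?_⟩
            · obtain ⟨x, hx, rfl⟩ := mem_image.1 hU
              obtain ⟨h1, h2, h3⟩ := hf.1 x (mem_of_mem_erase hx)
              have h4 := Sys.finrank_comap_mkQ A (x.map A.mkQ)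
              rw [e x hx] at h4
              have h5 := (hle x hx).2
              refine ⟨show S.X _ by rw [e x hx]; exact h1, ?_, ?_⟩ <;> omega
            · rw [coe_image]
              exact chain_image (fun x y h => Submodule.map_mono h)
                (hf.2.mono (Finset.coe_subset.2 (erase_subset A σ)))
            · rw [image_image]
              exact (image_congr fun x hx => e x hx).trans image_id)
          hcyc ((lk_card A w).trans hwc)
        refine ⟨c, fun σ hσ => ?_, hcb, hcc⟩
        obtain ⟨hcard, τ, hτ, rfl⟩ := hc σ hσ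
        have hd : ∀ x ∈ τ.image (Submodule.comap A.mkQ),
            S.X x ∧ A ≤ x ∧ a < finrank F x ∧ finrank F x ≤ b := fun x hx => by
          obtain ⟨U, hU, rfl⟩ := mem_image.1 hx
          obtain ⟨h1, h2, h3⟩ := hτ.1 U hU
          refine ⟨h1, Submodule.le_comap_mkQ A U, ?_⟩
          rw [Sys.finrank_comap_mkQ, hA]
          omega
        refine ⟨hcard, fun h => ?_, ⟨fun U hU => ?_, ?_⟩, fun x hx => (hd x hx).2.2.1.ne'⟩
        · exact (hd A h).2.2.1.ne' hA
        · rcases mem_insert.1 hU with rfl | hU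
          · exact ⟨hAX, hA.ge, by omega⟩
          · exact ⟨(hd U hU).1, (hd U hU).2.2.1.le, (hd U hU).2.2.2⟩
        · rw [coe_insert]
          refine IsChain.insert ?_ fun x hx _ => Or.inl (hd x (mem_coe.1 hx)).2.1
          rw [coe_image]
          exact chain_image (fun x y h => Submodule.comap_mono h) hτ.2
    rw [mem_chains] at hw'
    refine ⟨w', (mem_chains _).2 fun σ hσ => ?_, hwb'.trans hwb, ?_⟩
    · obtain ⟨⟨hf, hQ⟩, hc⟩ := hw' σ hσ
      refine ⟨⟨fun U hU => ?_, hf.2⟩, hc⟩
      obtain ⟨h1, h2, h3⟩ := hf.1 U hU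
      exact ⟨h1, lt_of_le_of_ne h2 (Ne.symm (hQ U hU)), h3⟩
    · exact hwc'.trans (Nat.add_le_add hwc
        (Nat.mul_le_mul (Nat.mul_le_mul hwc (Nat.succ_le_of_lt hj)) le_rfl))

/-- Bands have bounded contracting homotopies, hence are exact, in small sizes. -/
theorem band_cone (m φ : ℕ) {a : ℕ} (ha : 1 ≤ a) :
    ∃ N P : ℕ, ∀ (F V : Type) [Field F] [AddCommGroup V] [Module F V] [FiniteDimensional F V]
      (S : Sys F V) (b : ℕ), m + a ≤ b + 1 → b < finrank F V → S.fam.card ≤ φ →
      (P : ℕ∞) ≤ ENat.card F → (S.band a b).Cone m N ∧ (S.band a b).Ex m := by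
  choose N P h using bandFill m φ ha
  obtain ⟨M, L₀, hM⟩ := cone_of_fills m N
  refine ⟨M, (range (L₀ + 1)).sup P, fun F V _ _ _ _ S b hb hn hφ hP => ?_⟩
  have hC := hM _ (S.band a b) fun L hL => h L F V S b hb hn hφ
    (le_trans (by exact_mod_cast le_sup (f := P) (mem_range.2 (Nat.lt_succ_of_le hL))) hP)
  exact ⟨hC, ex_of_cone _ hC⟩

end Vale.Agent.P067.Band
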