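import Mathlib

/-!
Systems of subspaces given by upper bounds on the dimensions of the intersections with a finite
family: lower and upper intervals, generic lines, and the subspaces transversal to a family.
-/

noncomputable section

open Module Submodule

namespace Vale.Agent.P067.Band

/-- A family of subspaces and a property which is monotone in the profile and connects intervals. -/
structure Sys (F V : Type) [Field F] [AddCommGroup V] [Module F V] where
  /-- The reference subspaces. -/
  fam : Finset (Submodule F V)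
  /-- The members of the system. -/
  X : Submodule F V → Prop
  mono : ∀ U U' : Submodule F V, finrank F U = finrank F U' →
    (∀ W ∈ fam, finrank F ↥(U' ⊓ W) ≤ finrank F ↥(U ⊓ W)) → X U → X U'
  interval : ∀ A B : Submodule F V, A ≤ B → (X A ∨ A = ⊥) → (X B ∨ B = ⊤) →
    ∀ j, finrank F A < j → j < finrank F B → ∃ U, X U ∧ A ≤ U ∧ U ≤ B ∧ finrank F U = j

variable {F V : Type} [Field F] [AddCommGroup V] [Module F V] [FiniteDimensional F V]

omit [FiniteDimensional F V] in
/-- A vector outside finitely many subspaces, none of which contains `B`, chosen in `B`. -/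
theorem exists_mem_avoid (B : Submodule F V) (s : Finset (Submodule F V))
    (hs : (s.card : ℕ∞) < ENat.card F) (hB : ∀ W ∈ s, ¬B ≤ W) : ∃ u ∈ B, ∀ W ∈ s, u ∉ W := by
  classical
  have h := Submodule.iUnion_ssubset_of_forall_ne_top_of_card_lt (K := F) (M := B) s.attach
    (fun W => W.1.comap B.subtype)
    (fun W h => hB W.1 W.2 fun x hx => by
      have : (⟨x, hx⟩ : B) ∈ W.1.comap B.subtype := by rw [h]; trivial
      exact this)
    (by rwa [Finset.card_attach])
  obtain ⟨u, -, hu⟩ := Set.exists_of_ssubset h
  refine ⟨u, u.2, fun W hW hm => hu ?_⟩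
  exact Set.mem_iUnion₂.2 ⟨⟨W, hW⟩, Finset.mem_attach _ _, hm⟩

theorem finrank_sup_line {U : Submodule F V} {u : V} (hu : u ∉ U) :
    finrank F ↥(U ⊔ span F {u}) = finrank F U + 1 := by
  have hu0 : u ≠ 0 := fun h => hu (h ▸ U.zero_mem)
  have h := finrank_sup_add_finrank_inf_eq U (span F {u})
  have hd : U ⊓ span F {u} = ⊥ := disjoint_iff.1 ((disjoint_span_singleton' hu0).2 hu)
  rw [hd, finrank_bot, finrank_span_singleton hu0] at h
  omega

/-- Adding a vector outside `U ⊔ W` does not change the intersection with `W`. -/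
theorem sup_line_inf {U W : Submodule F V} {u : V} (hu : u ∉ U ⊔ W) :
    finrank F ↥((U ⊔ span F {u}) ⊓ W) = finrank F ↥(U ⊓ W) := by
  have hu' : u ∉ U := fun h => hu (mem_sup_left h)
  have h1 := finrank_sup_add_finrank_inf_eq (U ⊔ span F {u}) W
  have h2 := finrank_sup_add_finrank_inf_eq U W
  rw [sup_right_comm, finrank_sup_line hu, finrank_sup_line hu'] at h1
  omega

/-- The intersection with `W` after adding one vector to a subspace with `U ⊔ W = ⊤`. -/
theorem sup_line_inf_top {U W : Submodule F V} {u : V} (hu : u ∉ U) (h : U ⊔ W = ⊤) :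
    finrank F ↥((U ⊔ span F {u}) ⊓ W) + finrank F V = finrank F U + 1 + finrank F W := by
  have h1 := finrank_sup_add_finrank_inf_eq (U ⊔ span F {u}) W
  rw [sup_right_comm, h, top_sup_eq, finrank_top, finrank_sup_line hu] at h1
  omega

namespace Sys

variable (S : Sys F V)

/-- **Generic extension.** Adding a vector in general position keeps the property. -/
theorem sup_line {U : Submodule F V} (hU : S.X U ∨ U = ⊥) (hdim : finrank F U + 1 < finrank F V)
    {u : V} (hu : u ∉ U) (hgen : ∀ W ∈ S.fam, U ⊔ W ≠ ⊤ → u ∉ U ⊔ W) :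
    S.X (U ⊔ span F {u}) := by
  obtain ⟨U', hU', hle, -, hd⟩ := S.interval U ⊤ le_top hU (Or.inr rfl) (finrank F U + 1)
    (Nat.lt_succ_self _) (by rwa [finrank_top])
  refine S.mono U' _ (by rw [hd, finrank_sup_line hu]) (fun W hW => ?_) hU'
  by_cases h : U ⊔ W = ⊤
  · have h1 := sup_line_inf_top hu h
    have h2 := finrank_sup_add_finrank_inf_eq U' W
    have h3 := Submodule.finrank_le (U' ⊔ W)
    omega
  · rw [sup_line_inf (hgen W hW h)]
    exact Submodule.finrank_mono (inf_le_inf_right W hle)

/-- A generic vector: it extends every listed member and the zero subspace. -/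
theorem exists_generic (ξ : Finset (Submodule F V)) (hξ : ∀ U ∈ ξ, U ≠ ⊤)
    (hq : ((ξ.card + 1) * (S.fam.card + 1) : ℕ) < ENat.card F) (hn : 0 < finrank F V) :
    ∃ u : V, u ≠ 0 ∧ (∀ U ∈ ξ, u ∉ U) ∧ ∀ U ∈ insert ⊥ ξ, ∀ W ∈ S.fam, U ⊔ W ≠ ⊤ → u ∉ U ⊔ W := by
  classical
  set avoid := (((insert ⊥ ξ) ×ˢ (insert ⊥ S.fam)).image fun p => p.1 ⊔ p.2).filter (· ≠ ⊤)
    with hav
  have hc : avoid.card ≤ (ξ.card + 1) * (S.fam.card + 1) :=
    (Finset.card_filter_le _ _).trans (Finset.card_image_le.trans (by
      rw [Finset.card_product]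
      exact Nat.mul_le_mul (Finset.card_insert_le _ _) (Finset.card_insert_le _ _)))
  obtain ⟨u, -, hu⟩ := exists_mem_avoid (⊤ : Submodule F V) avoid
    (lt_of_le_of_lt (by exact_mod_cast hc) hq)
    fun W hW hle => (Finset.mem_filter.1 hW).2 (top_le_iff.1 hle)
  have mem : ∀ U ∈ insert ⊥ ξ, ∀ W ∈ insert ⊥ S.fam, U ⊔ W ≠ ⊤ → u ∉ U ⊔ W :=
    fun U hU W hW h => hu _ (Finset.mem_filter.2
      ⟨Finset.mem_image.2 ⟨(U, W), Finset.mem_product.2 ⟨hU, hW⟩, rfl⟩, h⟩)
  refine ⟨u, fun h0 => ?_, fun U hU hm => ?_, fun U hU W hW => mem U hU W (Finset.mem_insert_of_mem hW)⟩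
  · refine mem ⊥ (Finset.mem_insert_self _ _) ⊥ (Finset.mem_insert_self _ _) (fun h => ?_) (h0 ▸ zero_mem _)
    rw [sup_bot_eq] at h
    have h2 : finrank F (⊥ : Submodule F V) = finrank F (⊤ : Submodule F V) := by rw [h]
    rw [finrank_bot, finrank_top] at h2
    omega
  · exact mem U (Finset.mem_insert_of_mem hU) ⊥ (Finset.mem_insert_self _ _)
      (by rw [sup_bot_eq]; exact hξ U hU) (by rwa [sup_bot_eq])

/-- The part below a member, as subspaces of it. -/
def lower (B : Submodule F V) (hB : S.X B) : Sys F B :=
  letI := Classical.decEq (Submodule F B)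
  { fam := S.fam.image (Submodule.comap B.subtype)
    X := fun U => S.X (U.map B.subtype)
    mono := fun U U' hd h hU => by
      refine S.mono _ _ (by rw [finrank_map_subtype_eq, finrank_map_subtype_eq]; exact hd)
        (fun W hW => ?_) hU
      have e : ∀ U : Submodule F B, U.map B.subtype ⊓ W = (U ⊓ W.comap B.subtype).map B.subtype :=
        fun U => by rw [Submodule.map_inf _ B.subtype_injective, Submodule.map_comap_subtype,
          ← inf_assoc, inf_eq_left.2 (Submodule.map_subtype_le B U)]
      rw [e, e, finrank_map_subtype_eq, finrank_map_subtype_eq]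
      exact h _ (Finset.mem_image_of_mem _ hW)
    interval := fun A C hAC hA hC j hj1 hj2 => by
      have hA' : S.X (A.map B.subtype) ∨ A.map B.subtype = ⊥ :=
        hA.imp id fun h => by rw [h, Submodule.map_bot]
      have hC' : S.X (C.map B.subtype) := hC.elim id fun h => by
        rw [h, Submodule.map_subtype_top]; exact hB
      obtain ⟨U, hU, h1, h2, h3⟩ := S.interval _ _ (Submodule.map_mono hAC) hA' (Or.inl hC') j
        (by rwa [finrank_map_subtype_eq]) (by rwa [finrank_map_subtype_eq])
      have hUB : U ≤ B := h2.trans (Submodule.map_subtype_le B C)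
      have e : (U.comap B.subtype).map B.subtype = U := by
        rw [Submodule.map_comap_subtype, inf_eq_right.2 hUB]
      refine ⟨U.comap B.subtype, ?_, ?_, ?_, ?_⟩
      · show S.X _; rw [e]; exact hU
      · rwa [← Submodule.map_le_iff_le_comap]
      · rw [← Submodule.map_le_map_iff_of_injective B.subtype_injective, e]; exact h2
      · rw [← finrank_map_subtype_eq, e]; exact h3 }

theorem finrank_comap_mkQ (A : Submodule F V) (U : Submodule F (V ⧸ A)) :
    finrank F ↥(U.comap A.mkQ) = finrank F U + finrank F A := by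
  have h := Submodule.finrank_quotient_add_finrank (A.comap (U.comap A.mkQ).subtype)
  have hle : A ≤ U.comap A.mkQ := by
    intro x hx; simp [(Submodule.Quotient.mk_eq_zero A).2 hx]
  have e1 : finrank F ↥(A.comap (U.comap A.mkQ).subtype) = finrank F A :=
    (Submodule.comapSubtypeEquivOfLe hle).finrank_eq
  have h2 := LinearMap.finrank_range_add_finrank_ker (A.mkQ.comp (U.comap A.mkQ).subtype)
  rw [LinearMap.range_comp, Submodule.range_subtype, Submodule.map_comap_eq_of_surjective
    A.mkQ_surjective, LinearMap.ker_comp, Submodule.ker_mkQ, e1] at h2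
  omega

theorem finrank_comap_mkQ_inf (A : Submodule F V) (U : Submodule F (V ⧸ A)) (W : Submodule F V) :
    finrank F ↥(U.comap A.mkQ ⊓ W) + finrank F A =
      finrank F ↥(U ⊓ W.map A.mkQ) + finrank F A + finrank F ↥(A ⊓ W) := by
  have hle : A ≤ U.comap A.mkQ := by
    intro x hx; simp [(Submodule.Quotient.mk_eq_zero A).2 hx]
  have h1 : (U ⊓ W.map A.mkQ).comap A.mkQ = A ⊔ W ⊓ U.comap A.mkQ := by
    rw [Submodule.comap_inf, Submodule.comap_map_mkQ, inf_comm, sup_inf_assoc_of_le W hle]
  have h2 := finrank_comap_mkQ A (U ⊓ W.map A.mkQ)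
  rw [h1] at h2
  have h3 := finrank_sup_add_finrank_inf_eq A (W ⊓ U.comap A.mkQ)
  have h4 : A ⊓ (W ⊓ U.comap A.mkQ) = A ⊓ W := by
    rw [← inf_assoc, inf_eq_left.2 (inf_le_left.trans hle)]
  rw [h4, h2, inf_comm W] at h3
  omega

/-- The part above a member, as subspaces of the quotient. -/
def upper (A : Submodule F V) (hA : S.X A) : Sys F (V ⧸ A) :=
  letI := Classical.decEq (Submodule F (V ⧸ A))
  { fam := S.fam.image (Submodule.map A.mkQ)
    X := fun U => S.X (U.comap A.mkQ)
    mono := fun U U' hd h hU => by
      refine S.mono _ _ (by rw [finrank_comap_mkQ, finrank_comap_mkQ, hd]) (fun W hW => ?_) hU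
      have a := finrank_comap_mkQ_inf A U W
      have b := finrank_comap_mkQ_inf A U' W
      have c := h _ (Finset.mem_image_of_mem _ hW)
      omega
    interval := fun B C hBC hB hC j hj1 hj2 => by
      have hB' : S.X (B.comap A.mkQ) := hB.elim id fun h => by
        rw [h, Submodule.comap_bot, Submodule.ker_mkQ]; exact hA
      have hC' : S.X (C.comap A.mkQ) ∨ C.comap A.mkQ = ⊤ :=
        hC.imp id fun h => by rw [h, Submodule.comap_top]
      obtain ⟨U, hU, h1, h2, h3⟩ := S.interval _ _ (Submodule.comap_mono hBC) (Or.inl hB') hC'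
        (j + finrank F A) (by rw [finrank_comap_mkQ]; omega) (by rw [finrank_comap_mkQ]; omega)
      have hAU : A ≤ U := le_trans (fun x hx => by simp [(Submodule.Quotient.mk_eq_zero A).2 hx]) h1
      have e : (U.map A.mkQ).comap A.mkQ = U := by
        rw [Submodule.comap_map_mkQ, sup_eq_right.2 hAU]
      refine ⟨U.map A.mkQ, ?_, ?_, ?_, ?_⟩
      · show S.X _; rw [e]; exact hU
      · rw [← Submodule.comap_le_comap_iff_of_surjective A.mkQ_surjective, e]; exact h1
      · rw [Submodule.map_le_iff_le_comap]; exact h2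
      · have := finrank_comap_mkQ A (U.map A.mkQ); rw [e] at this; omega }

end Sys

/-- The property of being transversal to every member of the family. -/
def Transversal (fam : Finset (Submodule F V)) (U : Submodule F V) : Prop :=
  ∀ W ∈ fam, finrank F ↥(U ⊓ W) = finrank F U + finrank F W - finrank F V

/-- Transversality to finitely many subspaces connects intervals, over a large field. -/
theorem transversal_interval (fam : Finset (Submodule F V))
    (hq : (fam.card + 1 : ℕ) < ENat.card F) {A B : Submodule F V} (hAB : A ≤ B)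
    (hA : Transversal fam A) (hB : Transversal fam B) :
    ∀ j, finrank F A ≤ j → j ≤ finrank F B →
      ∃ U, Transversal fam U ∧ A ≤ U ∧ U ≤ B ∧ finrank F U = j := by
  classical
  intro j hj1 hj2
  induction j, hj1 using Nat.le_induction with
  | base => exact ⟨A, hA, le_rfl, hAB, rfl⟩
  | succ j hj1 ih =>
    obtain ⟨U, hU, h1, h2, h3⟩ := ih (by omega)
    set avoid := (insert ⊥ (fam.filter fun W : Submodule F V =>
      finrank F U + finrank F W < finrank F V)).image
      (U ⊔ ·) with hav
    obtain ⟨u, huB, hu⟩ := exists_mem_avoid B avoid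
      (lt_of_le_of_lt (by
        exact_mod_cast Finset.card_image_le.trans ((Finset.card_insert_le _ _).trans
          (Nat.succ_le_succ (Finset.card_filter_le _ _)))) hq)
      fun T hT hle => by
        obtain ⟨W, hW, rfl⟩ := Finset.mem_image.1 hT
        rcases Finset.mem_insert.1 hW with rfl | hW
        · rw [sup_bot_eq] at hle
          have := Submodule.finrank_mono hle
          omega
        · obtain ⟨hW, hlt⟩ := Finset.mem_filter.1 hW
          have e : (U ⊔ W) ⊓ B = U ⊔ W ⊓ B := sup_inf_assoc_of_le W h2
          rw [inf_eq_right.2 hle] at e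
          have a := finrank_sup_add_finrank_inf_eq U (W ⊓ B)
          have b : U ⊓ (W ⊓ B) = U ⊓ W := by
            rw [← inf_assoc, inf_eq_left.2 (inf_le_left.trans h2)]
          rw [← e, b, inf_comm W B, hB W hW, hU W hW] at a
          omega
    have hu0 : u ∉ U := fun h => hu (U ⊔ ⊥)
      (Finset.mem_image.2 ⟨⊥, Finset.mem_insert_self _ _, rfl⟩) (mem_sup_left h)
    refine ⟨U ⊔ span F {u}, fun W hW => ?_, h1.trans le_sup_left,
      sup_le h2 ((span_singleton_le_iff_mem _ _).2 huB), by rw [finrank_sup_line hu0, h3]⟩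
    rw [finrank_sup_line hu0]
    by_cases hlt : finrank F U + finrank F W < finrank F V
    · rw [sup_line_inf (hu _ (Finset.mem_image.2
        ⟨W, Finset.mem_insert_of_mem (Finset.mem_filter.2 ⟨hW, hlt⟩), rfl⟩)), hU W hW]
      omega
    · have a := finrank_sup_add_finrank_inf_eq U W
      have b : U ⊔ W = ⊤ := by
        refine Submodule.eq_top_of_finrank_eq ?_
        have := hU W hW
        have := Submodule.finrank_le (U ⊔ W)
        omega
      have c := sup_line_inf_top hu0 b
      omega

/-- The subspaces transversal to given subspaces, for a large field. -/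
def transSys (fam : Finset (Submodule F V))
    (hq : (fam.card + 1 : ℕ) < ENat.card F) : Sys F V where
  fam := fam
  X := Transversal fam
  mono U U' hd h hU W hW := by
    have h1 := h W hW
    have h2 := hU W hW
    have h3 := finrank_sup_add_finrank_inf_eq U' W
    have h4 := Submodule.finrank_le (U' ⊔ W)
    omega
  interval A B hAB hA hB j hj1 hj2 := by
    refine transversal_interval fam hq hAB ?_ ?_ j hj1.le hj2.le
    · rcases hA with h | rfl
      · exact h
      · intro W _
        have := Submodule.finrank_le W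
        rw [bot_inf_eq, finrank_bot]
        omega
    · rcases hB with h | rfl
      · exact h
      · intro W _
        rw [top_inf_eq, finrank_top]
        omega

end Vale.Agent.P067.Band
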